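import Vale.Agent.Lib.P356.helper23.Defs

/-!
# P356 pool job E (helper72): entropy of a reduced density matrix and the rank across the cut

The file contains its own proof of the Jensen step (pool job D), so it imports the
definitions only.
-/

namespace Vale.Agent.Lib.P356.H72

open Matrix
open Vale.Agent.Lib.P356

/-- Jensen: the entropy of a probability vector is at most the logarithm of the size of its
support. -/
theorem sum_negMulLog_le {n : Type*} [Fintype n] (lam : n → ℝ) (h0 : ∀ i, 0 ≤ lam i)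
    (h1 : ∑ i, lam i = 1) :
    ∑ i, Real.negMulLog (lam i) ≤ Real.log (Fintype.card {i // lam i ≠ 0}) := by
  classical
  have hcard : Fintype.card {i // lam i ≠ 0} = (Finset.univ.filter fun i => lam i ≠ 0).card :=
    Fintype.card_subtype _
  rw [hcard]
  obtain ⟨S, hS⟩ : ∃ S : Finset n, S = Finset.univ.filter fun i => lam i ≠ 0 := ⟨_, rfl⟩
  rw [← hS]
  have hmem : ∀ i, i ∈ S ↔ lam i ≠ 0 := by
    intro i
    rw [hS, Finset.mem_filter]
    exact ⟨fun h => h.2, fun h => ⟨Finset.mem_univ i, h⟩⟩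
  have hsum1 : ∑ i ∈ S, lam i = 1 := by
    rw [← h1]
    refine Finset.sum_subset (Finset.subset_univ S) fun i _ hi => ?_
    by_contra hne
    exact hi ((hmem i).mpr hne)
  have hsum2 : ∑ i, Real.negMulLog (lam i) = ∑ i ∈ S, Real.negMulLog (lam i) := by
    symm
    refine Finset.sum_subset (Finset.subset_univ S) fun i _ hi => ?_
    have hz : lam i = 0 := by
      by_contra hne
      exact hi ((hmem i).mpr hne)
    rw [hz, Real.negMulLog_zero]
  have hne : S.Nonempty := by
    by_contra hemp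
    rw [Finset.not_nonempty_iff_eq_empty] at hemp
    rw [hemp, Finset.sum_empty] at hsum1
    exact zero_ne_one hsum1
  have hk : (0 : ℝ) < (S.card : ℝ) := Nat.cast_pos.mpr (Finset.card_pos.mpr hne)
  have hJ := Real.concaveOn_negMulLog.le_map_sum (t := S) (w := fun _ => (1 : ℝ) / S.card)
    (p := lam) (fun i _ => by positivity)
    (by rw [Finset.sum_const, nsmul_eq_mul, mul_one_div, div_self hk.ne'])
    (fun i _ => h0 i)
  simp only [smul_eq_mul] at hJ
  rw [← Finset.mul_sum, ← Finset.mul_sum, hsum1, mul_one] at hJ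
  have hval : Real.negMulLog ((1 : ℝ) / S.card) = 1 / (S.card : ℝ) * Real.log (S.card : ℝ) := by
    rw [Real.negMulLog, one_div, Real.log_inv]
    ring
  rw [hval] at hJ
  rw [hsum2]
  have h2 : (S.card : ℝ) * (1 / (S.card : ℝ) * ∑ i ∈ S, Real.negMulLog (lam i))
      ≤ (S.card : ℝ) * (1 / (S.card : ℝ) * Real.log (S.card : ℝ)) :=
    mul_le_mul_of_nonneg_left hJ hk.le
  rw [← mul_assoc, ← mul_assoc, mul_one_div, div_self hk.ne', one_mul, one_mul] at h2
  exact h2

/-- The trace of `M * Mᴴ` is the sum of the squared absolute values of the entries. -/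
theorem trace_mul_conjTranspose_self {m n : Type*} [Fintype m] [Fintype n] (M : Matrix m n ℂ) :
    (M * Mᴴ).trace = ((∑ a, ∑ b, ‖M a b‖ ^ 2 : ℝ) : ℂ) := by
  rw [Matrix.trace]
  push_cast
  refine Finset.sum_congr rfl fun a _ => ?_
  rw [Matrix.diag_apply, Matrix.mul_apply]
  refine Finset.sum_congr rfl fun b _ => ?_
  rw [Matrix.conjTranspose_apply, Complex.star_def, Complex.mul_conj, Complex.normSq_eq_norm_sq]
  push_cast
  rfl

/-- The eigenvalues of a Hermitian matrix with real trace `r` sum to `r`. -/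
theorem sum_eigenvalues_of_trace {m : Type*} [Fintype m] [DecidableEq m] (B : Matrix m m ℂ)
    (hB : B.IsHermitian) (r : ℝ) (h : B.trace = (r : ℂ)) : ∑ i, hB.eigenvalues i = r := by
  have h2 := hB.trace_eq_sum_eigenvalues
  rw [h] at h2
  have h3 : (r : ℂ) = ((∑ i, hB.eigenvalues i : ℝ) : ℂ) := by
    rw [h2]
    push_cast
    rfl
  exact (Complex.ofReal_injective h3).symm

section

variable {Λ : Type*} [Fintype Λ] [DecidableEq Λ] {q : ℕ}

/-- Summation over configurations splits into the two sides of the cut. -/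
theorem sum_glue (A : Finset Λ) (f : Conf Λ q → ℝ) :
    ∑ a : {x // x ∈ A} → Fin q, ∑ b : {x // x ∉ A} → Fin q, f (glue A a b) = ∑ σ, f σ := by
  have h1 : ∑ p : ({x // x ∈ A} → Fin q) × ({x // x ∉ A} → Fin q),
      f ((Equiv.piEquivPiSubtypeProd (fun x => x ∈ A) (fun _ => Fin q)).symm p) = ∑ σ, f σ :=
    Equiv.sum_comp (Equiv.piEquivPiSubtypeProd (fun x => x ∈ A) (fun _ => Fin q)).symm f
  rw [← h1, Fintype.sum_prod_type]
  rfl

section Ordered

open scoped ComplexOrder

theorem reduced_eigenvalues_nonneg (A : Finset Λ) (Ω : Conf Λ q → ℂ) :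
    ∀ i, 0 ≤ (reduced_isHermitian A Ω).eigenvalues i := by
  have hps : (reduced A Ω).PosSemidef := Matrix.posSemidef_self_mul_conjTranspose (cutMatrix A Ω)
  exact fun i => hps.eigenvalues_nonneg i

theorem reduced_rank (A : Finset Λ) (Ω : Conf Λ q → ℂ) :
    (reduced A Ω).rank = (cutMatrix A Ω).rank :=
  Matrix.rank_self_mul_conjTranspose (cutMatrix A Ω)

end Ordered

theorem entropy_le_log_rank (A : Finset Λ) (Ω : Conf Λ q → ℂ) (hnorm : ∑ σ, ‖Ω σ‖ ^ 2 = 1) :
    entropy A Ω ≤ Real.log ((cutMatrix A Ω).rank : ℝ) := by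
  have hnn : ∀ i, 0 ≤ (reduced_isHermitian A Ω).eigenvalues i := reduced_eigenvalues_nonneg A Ω
  -- the trace
  have hsq : ∑ a, ∑ b, ‖cutMatrix A Ω a b‖ ^ 2 = 1 := by
    rw [← hnorm]
    exact sum_glue A (fun σ => ‖Ω σ‖ ^ 2)
  have htr : (reduced A Ω).trace = ((1 : ℝ) : ℂ) := by
    rw [← hsq]
    exact trace_mul_conjTranspose_self (cutMatrix A Ω)
  have hsum : ∑ i, (reduced_isHermitian A Ω).eigenvalues i = 1 :=
    sum_eigenvalues_of_trace (reduced A Ω) (reduced_isHermitian A Ω) 1 htr
  have hJ := sum_negMulLog_le (fun i => (reduced_isHermitian A Ω).eigenvalues i) hnn hsum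
  have hrank : (reduced A Ω).rank = (cutMatrix A Ω).rank := reduced_rank A Ω
  have hcard : (reduced A Ω).rank
      = Fintype.card {i // (reduced_isHermitian A Ω).eigenvalues i ≠ 0} :=
    (reduced_isHermitian A Ω).rank_eq_card_non_zero_eigs
  rw [← hrank, hcard]
  exact hJ

end

end Vale.Agent.Lib.P356.H72
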